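import Vale.Agent.P062.H880.Defs
import Vale.Agent.P062.H880.Final

namespace Vale.Agent.Results.P062.NineteenBoard

open Vale.Agent.P062

/-- Maker wins the unhandicapped achievement game for Snaky already inside the `19 × 19` board:
(1) in the plane; (2) in the plane, with all claims inside the `19 × 19` board, whatever legal
claims Breaker makes anywhere in the plane; (3) on the finite `19 × 19` board, with at most
`181` claims of his own. -/
theorem result : MakerHasWinningStrategy ∧ MakerWinsInside board19 ∧ MakerWinsOnBoard board19 ∧
    board19.card = 361 :=
  ⟨makerHasWinningStrategy, FB.inside19, FB.onBoard_of_inside FB.inside19, FB.card19⟩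

end Vale.Agent.Results.P062.NineteenBoard
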