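import Vale.Agent.P062.H307.Defs
import Vale.Agent.P062.H307.Final

namespace Vale.Agent.Results.P062.TwentyMoves

open Vale.Agent.P062

/-- Maker wins the unhandicapped achievement game for Snaky, with at most `20` claims of his own:
(1) Q1; (2) in the plane, with all claims inside a fixed `19 × 19` square, whatever legal claims
Breaker makes anywhere in the plane; (3) on every board that contains a `19 × 19` square; (4) in the
plane after Breaker has claimed any finite set `F` of cells in advance. -/
theorem result :
    MakerHasWinningStrategy ∧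
    MakerWinsWithin 20 (Set.Icc (-9) 9 ×ˢ Set.Icc (-9) 9) Set.univ ∧
    (∀ (a b : ℤ) (R : Set Cell), Set.Icc a (a + 18) ×ˢ Set.Icc b (b + 18) ⊆ R →
      MakerWinsWithin 20 R R) ∧
    ∀ F : Finset Cell, MakerWinsWithin 20 (F : Set Cell)ᶜ (F : Set Cell)ᶜ :=
  ⟨FD.win, FD.within_of_mwr (FD.mwr_square (-9) (-9)), FD.within_board, FD.within_compl⟩

end Vale.Agent.Results.P062.TwentyMoves
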